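import Vale.Agent.P216.B7.Props
import Vale.Agent.P216.H971.LowOut

/-!
# P216-B7, rows Z3 and Z4: transfer to the cyclic coverings

`Xt h' ≃ Xt h` by `(y, r) ↦ (pr y, s r)`, slabs of radius `R` correspond to slabs of radius `s R`.
-/

set_option linter.all false

open Set

namespace Vale.Agent.P216.B7.ZN977

open Vale.Agent.P216.Sl Vale.Agent.P216.N929
open AS PS
open Vale.Agent.P216.H971.Low

section gen

variable {k : Type} [Field k] {E E' : Type} [PseudoMetricSpace E] [PseudoMetricSpace E']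
  {X : Set E} {X' : Set E'} {n : ℕ} {F : E → E'}

theorem isMap_cont (hX : IsCompact X) (hf : ContinuousOn F X) (hm : MapsTo F X X') :
    IsMap (fun i : Empty => i.elim) (fun i : Empty => i.elim) X X' F :=
  IsMap.of_continuousOn hX hf hm fun i => i.elim

theorem coc_cont (hX : IsCompact X) (hf : ContinuousOn F X) (hm : MapsTo F X X')
    {f : List E' → k} (h : CocL X' n f) : CocL X n fun l => f (l.map F) :=
  CocL.map (isMap_cont hX hf hm) h

theorem exl_cont (hX : IsCompact X) (hf : ContinuousOn F X) (hm : MapsTo F X X')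
    {f : List E' → k} (h : ExL X' n f) : ExL X n fun l => f (l.map F) := by
  obtain ⟨g, hg, ε, hε, h⟩ := h
  obtain ⟨δ, hδ, h'⟩ := (isMap_cont hX hf hm).uc ε hε
  refine ⟨fun l => g (l.map F), fun h0 l => hg h0 _, δ, hδ, fun l hl hs => ?_⟩
  rw [Sl.dl_map]
  refine h _ (by rw [List.length_map, hl]) ⟨fun y hy => ?_, fun y hy y' hy' => ?_⟩
  · obtain ⟨x, hx, rfl⟩ := List.mem_map.1 hy
    exact hm (hs.1 x hx)
  · obtain ⟨x, hx, rfl⟩ := List.mem_map.1 hy
    obtain ⟨x', hx', rfl⟩ := List.mem_map.1 hy'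
    exact h' x (hs.1 x hx) x' (hs.1 x' hx') (hs.2 x hx x' hx')

theorem exl_congr {f g : List E → k} (h : ∀ l, (∀ x ∈ l, x ∈ X) → f l = g l) (hf : ExL X n f) :
    ExL X n g := by
  obtain ⟨u, hu, ε, hε, h1⟩ := hf
  exact ⟨u, hu, ε, hε, fun l hl hs => by rw [← h l hs.1, h1 l hl hs]⟩

theorem exl_empty (hX : ∀ x, x ∉ X) (f : List E → k) : ExL X n f := by
  refine ⟨fun _ => 0, fun _ _ => rfl, 1, one_pos, fun l hl hs => ?_⟩
  match l, hl with
  | a :: l, _ => exact absurd (hs.1 a List.mem_cons_self) (hX a)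

end gen

theorem ex_mul (s : ℕ) (r : ℝ) : ex r ^ s = ex (s * r) := by
  unfold ex
  rw [← Circle.exp_natCast_mul]
  congr 1
  ring

theorem continuous_ex : Continuous ex := by
  unfold ex
  fun_prop

variable {M : Type} [MetricSpace M] [CompactSpace M] {h : C(M, Circle)} {s : ℕ}

theorem isClosed_Xt (h : C(M, Circle)) : IsClosed (Xt h) :=
  isClosed_eq (h.continuous.comp continuous_fst) (continuous_ex.comp continuous_snd)

theorem isCompact_Slb (h : C(M, Circle)) (R : ℝ) : IsCompact (Slb h R) := by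
  have e : Slb h R = Xt h ∩ (univ ×ˢ Icc (-R) R) := by
    ext p
    simp only [Slb, mem_setOf_eq, mem_inter_iff, mem_prod, mem_univ, true_and, mem_Icc, abs_le]
  rw [e]
  exact (isCompact_univ.prod isCompact_Icc).inter_left (isClosed_Xt h)

theorem prs_mem (hs : 1 ≤ s) {p : M × ℝ} (hp : p ∈ Xt h) : prs s p ∈ Msp h s := by
  have hs0 : (s : ℝ) ≠ 0 := by
    have : s ≠ 0 := by omega
    exact_mod_cast this
  change ex (p.2 / s) ^ s = h p.1
  rw [ex_mul, mul_div_cancel₀ _ hs0]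
  exact hp.symm

section maps

variable {N : Type} [MetricSpace N] [CompactSpace N] (φ : N ≃ₜ Msp h s) {h' : C(N, Circle)}

/-- `(y, r) ↦ (pr y, s r)` -/
noncomputable def Ph (p : N × ℝ) : M × ℝ := ((φ p.1).1.1, s * p.2)

open Classical in
/-- `(x, r) ↦ (φ⁻¹ (x, ex (r / s)), r / s)` -/
noncomputable def Ps [Nonempty N] (p : M × ℝ) : N × ℝ :=
  if hp : prs s p ∈ Msp h s then (φ.symm ⟨prs s p, hp⟩, p.2 / s) else (Classical.arbitrary N, 0)

theorem continuous_Ph : Continuous (Ph φ) :=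
  ((continuous_fst.comp (continuous_subtype_val.comp (φ.continuous.comp continuous_fst)))).prodMk
    (continuous_const.mul continuous_snd)

theorem Ph_mem (hh : ∀ y, h' y = (φ y).1.2) {p : N × ℝ} (hp : p ∈ Xt h') : Ph φ p ∈ Xt h := by
  have h1 : (φ p.1).1.2 ^ s = h (φ p.1).1.1 := (φ p.1).2
  change h (φ p.1).1.1 = ex (s * p.2)
  rw [← h1, ← hh, ← ex_mul]
  congr 1

theorem Ph_slb (hs : 1 ≤ s) (hh : ∀ y, h' y = (φ y).1.2) {R : ℝ} :
    MapsTo (Ph φ) (Slb h' R) (Slb h (s * R)) := by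
  intro p hp
  refine ⟨Ph_mem φ hh hp.1, ?_⟩
  change |(s : ℝ) * p.2| ≤ s * R
  rw [abs_mul, Nat.abs_cast]
  exact mul_le_mul_of_nonneg_left hp.2 (Nat.cast_nonneg _)

variable [Nonempty N]

theorem Ps_eq (hs : 1 ≤ s) {p : M × ℝ} (hp : p ∈ Xt h) :
    Ps φ p = (φ.symm ⟨prs s p, prs_mem hs hp⟩, p.2 / s) := by
  rw [Ps, dif_pos (prs_mem hs hp)]

theorem continuousOn_Ps (hs : 1 ≤ s) : ContinuousOn (Ps φ) (Xt h) := by
  rw [continuousOn_iff_continuous_restrict]
  have e : (Xt h).domRestrict (Ps φ) =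
      fun q : Xt h => (φ.symm ⟨prs s q.1, prs_mem hs q.2⟩, q.1.2 / s) := by
    funext q
    exact Ps_eq φ hs q.2
  rw [e]
  refine Continuous.prodMk (φ.symm.continuous.comp (Continuous.subtype_mk ?_ _)) ?_
  · exact (continuous_fst.comp continuous_subtype_val).prodMk
      (continuous_ex.comp ((continuous_snd.comp continuous_subtype_val).div_const _))
  · exact (continuous_snd.comp continuous_subtype_val).div_const _

theorem Ps_slb (hs : 1 ≤ s) (hh : ∀ y, h' y = (φ y).1.2) {R : ℝ} :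
    MapsTo (Ps φ) (Slb h R) (Slb h' (R / s)) := by
  have hs0 : (0 : ℝ) < s := by exact_mod_cast hs
  intro p hp
  rw [Ps_eq φ hs hp.1]
  refine ⟨?_, ?_⟩
  · change h' (φ.symm _) = ex (p.2 / s)
    rw [hh, Homeomorph.apply_symm_apply]
    rfl
  · change |p.2 / s| ≤ R / s
    rw [abs_div, Nat.abs_cast]
    exact div_le_div_of_nonneg_right hp.2 hs0.le

theorem Ps_Ph (hs : 1 ≤ s) (hh : ∀ y, h' y = (φ y).1.2) {p : N × ℝ} (hp : p ∈ Xt h') :
    Ps φ (Ph φ p) = p := by
  have hs0 : (s : ℝ) ≠ 0 := by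
    have : s ≠ 0 := by omega
    exact_mod_cast this
  rw [Ps_eq φ hs (Ph_mem φ hh hp)]
  refine Prod.ext ?_ ?_
  · change φ.symm _ = p.1
    rw [Homeomorph.symm_apply_eq]
    refine Subtype.ext (Prod.ext rfl ?_)
    change ex ((s : ℝ) * p.2 / s) = (φ p.1).1.2
    rw [mul_div_cancel_left₀ _ hs0, ← hh]
    exact hp.symm
  · change (s : ℝ) * p.2 / s = p.2
    rw [mul_div_cancel_left₀ _ hs0]

theorem Ps_prs (hs : 1 ≤ s) {p : M × ℝ} (hp : p ∈ Xt h) : (φ (Ps φ p).1).1 = prs s p := by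
  rw [Ps_eq φ hs hp]
  change (φ (φ.symm _)).1 = _
  rw [Homeomorph.apply_symm_apply]

end maps

end Vale.Agent.P216.B7.ZN977

namespace Vale.Agent.P216.B7

open Vale.Agent.P216.Sl Vale.Agent.P216.N929
open ZN977
open Vale.Agent.P216.H971.Low

theorem z3Goal : Z3Goal := by
  intro M _ _ h s hs N _ _ φ h' hh k _ j hj hNZ R
  have hs0 : (0 : ℝ) < s := by exact_mod_cast hs
  obtain ⟨R1, hR1, H⟩ := hNZ (s * R)
  refine ⟨R1 / s, by rw [le_div_iff₀ hs0]; linarith, fun f hf => ?_⟩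
  rcases isEmpty_or_nonempty N with hN | hN
  · exact exl_empty (fun x _ => hN.false x.1) f
  have h1 : CocL (Slb h R1) j fun l => f (l.map (Ps φ)) :=
    coc_cont (isCompact_Slb h R1) ((continuousOn_Ps φ hs).mono fun p hp => hp.1)
      (Ps_slb φ hs hh) hf
  have h2 := H _ h1
  have h3 := exl_cont (isCompact_Slb h' R) (continuous_Ph φ).continuousOn (Ph_slb φ hs hh) h2
  refine exl_congr (fun l hl => ?_) h3
  rw [List.map_map]
  congr 1
  rw [List.map_congr_left (g := id), List.map_id]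
  intro p hp
  exact Ps_Ph φ hs hh (hl p hp).1

theorem z4Goal : Z4Goal := by
  intro M _ _ h s hs N _ _ φ h' hh k _ j hj U hU ⟨R, hR⟩
  rcases isEmpty_or_nonempty N with hN | hN
  · refine absurd (exl_empty (fun p hp => ?_) _) hR
    exact hN.false (φ.symm ⟨prs s p, prs_mem hs hp.1⟩)
  have hc : Continuous fun y : N => (φ y).1 := continuous_subtype_val.comp φ.continuous
  have h1 : CocL (univ : Set N) j fun l => U (l.map fun y => (φ y).1) :=
    coc_cont isCompact_univ hc.continuousOn (fun y _ => (φ y).2) hU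
  obtain ⟨U', nU, hU', hx⟩ := exists_nrm h1
  refine ⟨U', nU, hU', R / s, fun hE => hR ?_⟩
  have hx' := hx.exL (show j ≠ 0 by omega)
  have h2 : ExL (Slb h' (R / s)) j fun l => (fun l => U (l.map fun y => (φ y).1) - U' l)
      (l.map Prod.fst) :=
    exl_cont (isCompact_Slb h' _) continuous_fst.continuousOn (fun _ _ => mem_univ _) hx'
  have h3 := (((exC_of_exL h2).add (exC_of_exL hE)).exL (show j ≠ 0 by omega))
  have h4 := exl_cont (isCompact_Slb h R) ((continuousOn_Ps φ hs).mono fun p hp => hp.1)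
    (Ps_slb φ hs hh) h3
  refine exl_congr (fun l hl => ?_) h4
  simp only [sub_add_cancel, List.map_map]
  congr 1
  refine List.map_congr_left fun p hp => ?_
  exact Ps_prs φ hs (hl p hp).1

end Vale.Agent.P216.B7
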